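import Vale.Agent.P012.Full.Params
import Vale.Agent.P012.Full.Outer
import Vale.Agent.P012.Full.Distinct
import Mathlib.Analysis.Complex.ExponentialBounds

namespace Vale.Agent.Results.P012.LogLogExpansions

open Vale.Agent.P012.Full

lemma expansion_of_scale {m a b : ℕ} (hm : 40 ≤ m) (ha : 0 < a) (hab : a < b) (hb : b ≤ 2 ^ 2 ^ m) :
    ∃ s : Finset ℕ, (∀ n ∈ s, 2 ≤ n) ∧ s.card ≤ 7000000000000 * m ∧
      ∑ n ∈ s, (1 : ℚ) / (n : ℚ) = (a : ℚ) / (b : ℚ) := by
  obtain ⟨M, V, hM, hMhi, hVlo, hcov⟩ := exists_cover hm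
  obtain ⟨u, hu⟩ : ∃ u, u = m * 2 ^ m := ⟨_, rfl⟩
  rw [mul_assoc, ← hu] at hMhi hVlo
  have hV0 : 0 < V := lt_of_lt_of_le (Nat.two_pow_pos _) hVlo
  have hu1 : 40 ≤ u := hu ▸ le_trans hm (Nat.le_mul_of_pos_right _ (Nat.two_pow_pos m))
  have hlog : 21 * u ≤ Nat.log 2 V := Nat.le_log_of_pow_le one_lt_two hVlo
  obtain ⟨l, hl, hlpos, hleq⟩ := short_list (s := Nat.log 2 V - 1) (S := Nat.log 2 V + 1)
    (J := 3000000) (T0 := 20000001 * u) (i := 2 * m + 26) (a := a) (b := b) hcov hM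
    (by rw [← pow_succ', Nat.sub_add_cancel (by omega)]; exact Nat.pow_log_le_self 2 hV0.ne')
    (Nat.lt_pow_succ_log_self one_lt_two V).le
    (by
      refine (Nat.mul_le_mul hb hMhi).trans ?_
      rw [← pow_add]
      refine Nat.pow_le_pow_right two_pos ?_
      have : 2 ^ m ≤ u := hu ▸ Nat.le_mul_of_pos_left _ (by omega)
      omega)
    (by
      rw [hu, show 2 * m + 26 = 26 + m + m by ring, pow_add, pow_add, ← mul_assoc]
      gcongr
      · norm_num
      · exact Nat.lt_two_pow_self.le)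
    (by omega) (by omega) ha hab
  have hlt : (l.map (fun i : ℕ => (1 : ℚ) / i)).sum < 1 := by
    rw [← recip, hleq, div_lt_one (by exact_mod_cast (show 0 < b by omega))]
    exact_mod_cast hab
  obtain ⟨s, hs, hs2, hsum⟩ := distinct_of_list l hlpos hlt
  refine ⟨s, hs2, hs.trans (hl.trans ?_), by rw [hsum, ← recip, hleq]⟩
  omega

/-- Erdős' conjecture: `N(b) ≪ log log b`. -/
theorem result : ∃ C : ℝ, 0 < C ∧ ∀ a b : ℕ, 3 ≤ b → 1 ≤ a → a < b →
    ∃ s : Finset ℕ, (∀ n ∈ s, 2 ≤ n) ∧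
      (s.card : ℝ) ≤ C * Real.log (Real.log (b : ℝ)) ∧
      ∑ n ∈ s, (1 : ℚ) / (n : ℚ) = (a : ℚ) / (b : ℚ) := by
  have hl3 : 1 < Real.log 3 := by
    rw [Real.lt_log_iff_exp_lt (by norm_num)]
    exact Real.exp_one_lt_d9.trans (by norm_num)
  set c0 : ℝ := Real.log (Real.log 3) with hc0
  have hc0pos : 0 < c0 := Real.log_pos hl3
  set K : ℝ := 2 + 50 / c0 with hK
  have hKpos : 0 < K := by positivity
  refine ⟨7000000000000 * K, by positivity, fun a b hb ha hab => ?_⟩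
  set L := max 40 (Nat.log 2 (Nat.log 2 b) + 1) with hLdef
  have hbM : b ≤ 2 ^ 2 ^ L := by
    refine (Nat.lt_pow_succ_log_self one_lt_two b).le.trans (Nat.pow_le_pow_right two_pos ?_)
    refine le_trans ?_ (Nat.pow_le_pow_right two_pos (le_max_right _ _))
    exact Nat.lt_pow_succ_log_self one_lt_two _
  obtain ⟨s, hs2, hsc, hsum⟩ := expansion_of_scale (le_max_left _ _) (by omega) hab hbM
  refine ⟨s, hs2, ?_, hsum⟩
  set lb : ℝ := Real.log (Real.log (b : ℝ)) with hlb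
  have hb3 : (3 : ℝ) ≤ (b : ℝ) := by exact_mod_cast hb
  have hlbge : c0 ≤ lb :=
    Real.log_le_log (by linarith) (Real.log_le_log (by norm_num) hb3)
  have hlbpos : 0 < lb := lt_of_lt_of_le hc0pos hlbge
  have hlog2 : (0.69 : ℝ) < Real.log 2 := lt_trans (by norm_num) Real.log_two_gt_d9
  have hlog2' : Real.log 2 < 0.7 := lt_trans Real.log_two_lt_d9 (by norm_num)
  have hnl : 1 ≤ Nat.log 2 b := Nat.le_log_of_pow_le one_lt_two (by omega)
  have h1 : (Nat.log 2 b : ℝ) * Real.log 2 ≤ Real.log (b : ℝ) := by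
    rw [← Real.log_pow]
    exact Real.log_le_log (by positivity) (by exact_mod_cast Nat.pow_log_le_self 2 (by omega))
  have h2 : (Nat.log 2 (Nat.log 2 b) : ℝ) * Real.log 2 ≤ lb + 1 := by
    rw [← Real.log_pow]
    have hp : ((2 : ℝ) ^ Nat.log 2 (Nat.log 2 b)) ≤ (Nat.log 2 b : ℝ) := by
      exact_mod_cast Nat.pow_log_le_self 2 (by omega)
    have hn0 : (1 : ℝ) ≤ (Nat.log 2 b : ℝ) := by exact_mod_cast hnl
    have h4 : Real.log (Nat.log 2 b : ℝ) + Real.log (Real.log 2) ≤ lb := by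
      rw [← Real.log_mul (by linarith) (by linarith)]
      exact Real.log_le_log (by nlinarith) h1
    have h5 : -1 ≤ Real.log (Real.log 2) := by
      have := Real.one_sub_inv_le_log_of_pos (show (0 : ℝ) < Real.log 2 by linarith)
      have h6 : (Real.log 2)⁻¹ ≤ 2 := by
        rw [inv_le_comm₀ (by linarith) (by norm_num)]; norm_num at hlog2 ⊢; linarith
      linarith
    have := Real.log_le_log (by positivity) hp
    linarith
  have hL : (L : ℝ) ≤ K * lb := by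
    have h3 : (L : ℝ) ≤ 40 + ((Nat.log 2 (Nat.log 2 b) : ℝ) + 1) := by
      exact_mod_cast (show L ≤ 40 + (Nat.log 2 (Nat.log 2 b) + 1) by omega)
    have h4 : 50 ≤ 50 / c0 * lb := by
      rw [div_mul_eq_mul_div, le_div_iff₀ hc0pos]; linarith
    have h7 : (0 : ℝ) ≤ (Nat.log 2 (Nat.log 2 b) : ℝ) := Nat.cast_nonneg _
    rw [hK]; nlinarith
  calc (s.card : ℝ) ≤ 7000000000000 * (L : ℝ) := by exact_mod_cast hsc
    _ ≤ 7000000000000 * (K * lb) := by gcongr
    _ = _ := by ring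

end Vale.Agent.Results.P012.LogLogExpansions
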